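import Vale.Agent.P300.ASM.Glue
import Vale.Agent.P300.ASM.D3Val
import Vale.Agent.P300.TOR.Turns

/-!
# P300: a compact complex surface, finite over `(ℙ¹)⁵`, whose universal covering is not
holomorphically convex
-/

open scoped Manifold ContDiff LinearAlgebra.Projectivization

namespace Vale.Agent.Results.P300.ACompactSurface

open Vale.Agent.P300

/-- There are a connected compact Hausdorff complex manifold `X` of dimension two and five
holomorphic maps `X → ℙ¹(ℂ)` with finite joint fibres, such that `X` has a universal covering (in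
the category of complex manifolds) and none of its universal coverings is holomorphically convex. -/
theorem result :
    ∃ (X : Type) (_ : TopologicalSpace X) (_ : ChartedSpace (Fin 2 → ℂ) X),
      (IsManifold 𝓘(ℂ, Fin 2 → ℂ) ω X ∧ T2Space X ∧ CompactSpace X ∧ ConnectedSpace X ∧
        ∃ F : Fin 5 → X → ℙ ℂ (Fin (1 + 1) → ℂ),
          (∀ j, IsHolomorphicToProjective (Fin 2 → ℂ) (F j)) ∧
          ∀ x : X, {y | ∀ j, F j y = F j x}.Finite) ∧
      (∃ (V : Type) (_ : TopologicalSpace V) (_ : ChartedSpace (Fin 2 → ℂ) V) (p : V → X),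
        IsUniversalCovering (Fin 2 → ℂ) p) ∧
      ∀ (V : Type) (_ : TopologicalSpace V) (_ : ChartedSpace (Fin 2 → ℂ) V) (p : V → X),
        IsUniversalCovering (Fin 2 → ℂ) p → ¬ HolomorphicallyConvex (Fin 2 → ℂ) V :=
  ASM.surface_of (TOR.nodeSpecAll ASM.rE) (ASM.chainsXX (TOR.nodeSpecAll ASM.rE))

end Vale.Agent.Results.P300.ACompactSurface
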