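import Vale.Agent.P300.Final.Old
import Vale.Agent.P300.H214.Final

open scoped Manifold ContDiff
open Vale.Agent.P300

/-- **Shafarevich's conjecture on holomorphic convexity is false, already for surfaces.**
There is a smooth connected projective complex surface `X` (a compact connected Hausdorff complex
manifold of dimension 2 with an injective holomorphic immersion into a projective space whose image
is algebraic) which has a universal covering `V → X` by a simply connected complex manifold `V`, and
for no such covering `V → X` is `V` holomorphically convex. -/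
theorem Vale.Agent.Results.P300.ADisproof.result :
    ∃ (X : Type) (_ : TopologicalSpace X) (_ : ChartedSpace (Fin 2 → ℂ) X),
      (IsManifold 𝓘(ℂ, Fin 2 → ℂ) ω X ∧ T2Space X ∧ CompactSpace X ∧ ConnectedSpace X ∧
        Final.IsSmoothProjective (Fin 2 → ℂ) X) ∧
      (∃ (V : Type) (_ : TopologicalSpace V) (_ : ChartedSpace (Fin 2 → ℂ) V) (p : V → X),
        Final.IsUniversalCovering (Fin 2 → ℂ) p) ∧
      ∀ (V : Type) (_ : TopologicalSpace V) (_ : ChartedSpace (Fin 2 → ℂ) V) (p : V → X),
        Final.IsUniversalCovering (Fin 2 → ℂ) p → ¬ HolomorphicallyConvex (Fin 2 → ℂ) V :=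
  Final.of_old H214.disproof
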