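import Vale.Agent.P300.Final.OldJ
import Vale.Agent.P300.H232.Jac
import Vale.Agent.P300.H214.Final

open scoped Manifold ContDiff
open Vale.Agent.P300

/-- **Shafarevich's holomorphic convexity conjecture is false**, already for surfaces: there is a
connected compact complex manifold `X` of dimension `2`, biholomorphic to a nonsingular projective
surface (Jacobian criterion included in `Final.IsNonsingularProjective`), such that a universal
covering of `X` exists and none is holomorphically convex. -/
theorem Vale.Agent.Results.P300.ADisproofJ.result :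
    ∃ (X : Type) (_ : TopologicalSpace X) (_ : ChartedSpace (Fin 2 → ℂ) X),
      (IsManifold 𝓘(ℂ, Fin 2 → ℂ) ω X ∧ T2Space X ∧ CompactSpace X ∧ ConnectedSpace X ∧
        Final.IsNonsingularProjective (Fin 2 → ℂ) X) ∧
      (∃ (V : Type) (_ : TopologicalSpace V) (_ : ChartedSpace (Fin 2 → ℂ) V) (p : V → X),
        Final.IsUniversalCovering (Fin 2 → ℂ) p) ∧
      ∀ (V : Type) (_ : TopologicalSpace V) (_ : ChartedSpace (Fin 2 → ℂ) V) (p : V → X),
        Final.IsUniversalCovering (Fin 2 → ℂ) p → ¬ HolomorphicallyConvex (Fin 2 → ℂ) V :=
  Final.of_oldJ (H232.DisproofStatement.toJ H214.disproof)
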