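import Vale.Agent.P300L.Stein

open scoped Manifold ContDiff Topology
open Vale.Agent.P300 Vale.Agent.P300L

/-- Let `p : V → Y` be a holomorphic Galois covering of complex manifolds, for instance the
universal covering of a compact manifold (then `ρ = 0` is a plurisubharmonic exhaustion of `Y` and
`Y` is holomorphically convex). `IsLipHol E p f` says that `f` is a holomorphic function on `V`
whose oscillation on the deck translates of every compact set is bounded.

(A) Holomorphic convexity of `V`, if these functions separate properly.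
(B) A plurisubharmonic exhaustion of `V`, if they separate the points locally modulo compact sets.
(C) A strictly plurisubharmonic exhaustion of `V`, if their common level sets are discrete.
(D) The same, if there is a holomorphic map with discrete fibres from `V` to a complex normed
space whose oscillation on the deck translates of every compact set is bounded. -/
theorem Vale.Agent.Results.P300.LipschitzCovers.result
    {E : Type*} [NormedAddCommGroup E] [NormedSpace ℂ E] [FiniteDimensional ℂ E]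
    {Y : Type*} [TopologicalSpace Y] [ChartedSpace E Y]
    {V : Type*} [TopologicalSpace V] [ChartedSpace E V] [IsManifold 𝓘(ℂ, E) ω V] [T2Space V]
    [SigmaCompactSpace V]
    {p : V → Y} (hp : IsHolomorphicCovering E p) (hpG : IsGaloisCovering p) :
    -- (A)
    (HolomorphicallyConvex E Y →
      (∀ v : V, ∃ F : Finset (V → ℂ), (∀ f ∈ F, IsLipHol E p f) ∧ ∃ ε : ℝ, 0 < ε ∧
        ∃ Q : Set V, IsCompact Q ∧
          ∀ w, (∀ γ, IsDeck p γ → ∀ f ∈ F, ‖f (γ w) - f (γ v)‖ < ε) → w ∈ Q) →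
      HolomorphicallyConvex E V) ∧
    -- (B)
    ((∃ ρ : Y → ℝ, IsPSH E ρ ∧ IsExhaustion ρ) →
      (∀ v : V, ∃ B ∈ 𝓝 v, IsCompact B ∧
        ∀ z ∈ frontier B, ∃ f, IsLipHol E p f ∧ f z ≠ f v) →
      ∃ ρ : V → ℝ, IsPSH E ρ ∧ IsExhaustion ρ) ∧
    -- (C)
    ((∃ ρ : Y → ℝ, IsPSH E ρ ∧ IsExhaustion ρ) →
      (∀ v : V, ∃ U ∈ 𝓝 v, ∀ w ∈ U, (∀ f, IsLipHol E p f → f w = f v) → w = v) →
      ∃ ρ : V → ℝ, IsStrictlyPSH E ρ ∧ IsExhaustion ρ) ∧
    -- (D)
    (∀ {B : Type*} [NormedAddCommGroup B] [NormedSpace ℂ B] {g : V → B},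
      (∃ ρ : Y → ℝ, IsPSH E ρ ∧ IsExhaustion ρ) →
      ContMDiff 𝓘(ℂ, E) 𝓘(ℂ, B) ω g →
      (∀ v : V, ∃ U ∈ 𝓝 v, ∀ w ∈ U, g w = g v → w = v) →
      (∀ K : Set V, IsCompact K → ∃ C : ℝ, ∀ γ : V ≃ₜ V, IsDeck p γ →
        ∀ x ∈ K, ∀ y ∈ K, ‖g (γ x) - g (γ y)‖ ≤ C) →
      ∃ ρ : V → ℝ, IsStrictlyPSH E ρ ∧ IsExhaustion ρ) := by
  refine ⟨fun hY hA => ?_, ?_, ?_, ?_⟩
  · refine cover_holomorphicallyConvex hp hpG hY fun v => ?_
    obtain ⟨F, hF, ε, hε, Q, hQ, hQF⟩ := hA v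
    exact ⟨F, hF, ε, hε, Q, hQ, hQF⟩
  · rintro ⟨ρ, hρ, hρe⟩ hsep
    exact cover_exhaustion hp hpG hρ hρe hsep
  · rintro ⟨ρ, hρ, hρe⟩ hsep
    refine cover_strict_exhaustion' hp hpG hρ hρe fun v => ?_
    obtain ⟨U, hU, hUv⟩ := hsep v
    refine ⟨U, hU, fun w hw hwv => ?_⟩
    by_contra hcon
    push Not at hcon
    exact hwv (hUv w hw hcon)
  · rintro B _ _ g ⟨ρ, hρ, hρe⟩ hg hgd hgb
    exact cover_strict_exhaustion' hp hpG hρ hρe fun v => sep_of_map hg hgb hgd v
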