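import Vale.Agent.P300.Tame.Cor

open scoped Manifold ContDiff
open Vale.Agent.P300

universe u u' v w

/-- Let `p : V → X` be a connected holomorphic Galois covering (for instance the universal
covering) of a compact complex manifold `X`. Special cases of Shafarevich's holomorphic convexity
of `V`, with no condition on the fundamental group: holomorphic convexity at infinity follows from
a local discreteness property of the orbits of the deck group. -/
theorem Vale.Agent.Results.P300.TameCovers.result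
    -- the compact complex manifold `X` and its holomorphic Galois covering `V`
    {E : Type u} [NormedAddCommGroup E] [NormedSpace ℂ E] [FiniteDimensional ℂ E]
    {X : Type v} [TopologicalSpace X] [ChartedSpace E X] [IsManifold 𝓘(ℂ, E) ω X]
    [T2Space X] [CompactSpace X]
    {V : Type v} [TopologicalSpace V] [ChartedSpace E V] [IsManifold 𝓘(ℂ, E) ω V] [T2Space V]
    [ConnectedSpace V]
    {p : V → X} (hp : IsHolomorphicCovering E p) (hpG : IsGaloisCovering p)
    -- the data of (1): a complex manifold `Y`, a connected Galois covering `W` of it and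
    -- `F : V → W`
    {E₂ : Type u} [NormedAddCommGroup E₂] [NormedSpace ℂ E₂] [FiniteDimensional ℂ E₂]
    {Y : Type w} [TopologicalSpace Y] [ChartedSpace E₂ Y] [IsManifold 𝓘(ℂ, E₂) ω Y] [T2Space Y]
    {W : Type w} [TopologicalSpace W] [ChartedSpace E₂ W] [IsManifold 𝓘(ℂ, E₂) ω W]
    [T2Space W] [ConnectedSpace W]
    {q : W → Y} {f : X → Y} {F : V → W} {ι : Type v}
    -- the data of (2): a map `g` to a complex normed space `B`
    {B : Type u'} [NormedAddCommGroup B] [NormedSpace ℂ B] {g : V → B} :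
    -- (1)
    (IsHolomorphicCovering E₂ q → IsGaloisCovering q → HolomorphicallyConvex E₂ W →
      ContMDiff 𝓘(ℂ, E) 𝓘(ℂ, E₂) ω F → (∀ v, q (F v) = f (p v)) →
      (∀ v : V, ∃ (n : ℕ) (N : Fin n → V → ℝ) (h : Fin n → ι → V → ℂ) (ε : ℝ),
        (∀ k, IsTameFamily E p F (N k) (h k)) ∧ 0 < ε ∧
        {u | p u = p v ∧ F u = F v ∧
          ∀ k, |N k u - N k v| < ε ∧ ∀ i, ‖h k i u - h k i v‖ < ε}.Finite) →
      HolomorphicallyConvex E V) ∧
    -- (2)
    (ContMDiff 𝓘(ℂ, E) 𝓘(ℂ, B) ω g → Topology.IsEmbedding g →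
      (∀ v, Function.Injective (mfderiv 𝓘(ℂ, E) 𝓘(ℂ, B) g v)) →
      (∀ C : Set V, IsCompact C → ∃ M : ℝ, ∀ γ : V ≃ₜ V, (∀ x, p (γ x) = p x) →
        ∀ x ∈ C, ∀ y ∈ C, ‖g (γ x) - g (γ y)‖ ≤ M) →
      IsSteinManifold E V) ∧
    -- (3)
    ((∀ v : V, ∃ ε > (0 : ℝ), {u | p u = p v ∧ ∀ h : V → ℂ, ContMDiff 𝓘(ℂ, E) 𝓘(ℂ) ω h →
        (∀ x, ‖h x‖ < 1) → ‖h u - h v‖ < ε}.Finite) →
      HolomorphicallyConvex E V) := by
  refine ⟨?_, ?_, ?_⟩
  · intro hq hqG hW hF hFf hsep
    exact Tame.relative hp hpG hq hqG hF hFf hW hsep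
  · intro hg hgi hgd hb
    exact Tame.stein_of_embedding hp hpG hg hgi.isInducing hgd hb
  · intro hsep
    exact Tame.convex_of_caratheodory hp hpG hsep
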